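import Vale.Agent.P161.Converse.Kernel
import Vale.Agent.P161.Finite

/-!
# The free Ising measure is no factor of IID above the threshold

The conditional means of the spins given the labels in balls of radius `R` have a radial positive
definite correlation kernel of finite range, which tends to `θ ^ j` as `R` grows.
-/

namespace Vale.Agent.P161.Converse

open MeasureTheory unitInterval SimpleGraph Filter Topology Vale.Agent.P161 Vale.Agent.P161.Crit

variable {V : Type*} {G : SimpleGraph V}

instance isProbabilityMeasure_iidLabels : IsProbabilityMeasure (iidLabels V) := by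
  unfold iidLabels; infer_instance

open Classical in
/-- The first labels on `B`, the second labels elsewhere. -/
noncomputable def mrg (B : Finset V) (p : (V → I) × (V → I)) : V → I :=
  fun v => if v ∈ B then p.1 v else p.2 v

lemma measurable_mrg (B : Finset V) : Measurable (mrg B) := by
  refine measurable_pi_lambda _ fun v => ?_
  unfold mrg
  by_cases h : v ∈ B
  · simp only [if_pos h]; exact (measurable_pi_apply v).comp measurable_fst
  · simp only [if_neg h]; exact (measurable_pi_apply v).comp measurable_snd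

lemma map_mrg (B : Finset V) :
    ((iidLabels V).prod (iidLabels V)).map (mrg B) = iidLabels V := by
  classical
  refine Measure.eq_infinitePi _ fun s t ht => ?_
  rw [Measure.map_apply (measurable_mrg B) (.pi s.countable_toSet fun _ _ => ht _)]
  have hpre : mrg B ⁻¹' (s : Set V).pi t =
      ((s.filter (· ∈ B) : Finset V) : Set V).pi t ×ˢ
        ((s.filter (· ∉ B) : Finset V) : Set V).pi t := by
    ext ⟨r, r'⟩
    simp only [Set.mem_preimage, Set.mem_pi, Finset.mem_coe, Set.mem_prod, Finset.mem_filter, mrg]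
    constructor
    · intro h
      exact ⟨fun i hi => by simpa [hi.2] using h i hi.1, fun i hi => by simpa [hi.2] using h i hi.1⟩
    · rintro ⟨h1, h2⟩ i hi
      by_cases hB : i ∈ B
      · simpa [hB] using h1 i ⟨hi, hB⟩
      · simpa [hB] using h2 i ⟨hi, hB⟩
  rw [hpre, Measure.prod_prod, iidLabels, Measure.infinitePi_pi _ (fun v _ => ht _),
    Measure.infinitePi_pi _ (fun v _ => ht _), Finset.prod_filter_mul_prod_filter_not]

lemma map_relabel [Countable V] (g : V ≃ V) :
    (iidLabels V).map (fun U v => U (g.symm v)) = iidLabels V := by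
  classical
  have hm : Measurable fun (U : V → I) v => U (g.symm v) :=
    measurable_pi_lambda _ fun v => measurable_pi_apply _
  refine Measure.eq_infinitePi _ fun s t ht => ?_
  rw [Measure.map_apply hm (.pi s.countable_toSet fun _ _ => ht _)]
  have hpre : (fun (U : V → I) v => U (g.symm v)) ⁻¹' (s : Set V).pi t =
      ((s.map g.symm.toEmbedding : Finset V) : Set V).pi fun i => t (g i) := by
    ext U
    simp only [Set.mem_preimage, Set.mem_pi, Finset.mem_coe, Finset.mem_map,
      Equiv.coe_toEmbedding]
    constructor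
    · rintro h i ⟨v, hv, rfl⟩
      simpa using h v hv
    · intro h v hv
      simpa using h (g.symm v) ⟨v, hv, rfl⟩
  rw [hpre, iidLabels, Measure.infinitePi_pi _ (fun v _ => ht _), Finset.prod_map]
  simp

lemma integrable_of_le_one {X : Type*} [MeasurableSpace X] {μ : Measure X} [IsFiniteMeasure μ]
    {f : X → ℝ} (hf : Measurable f) (hC : ∀ x, |f x| ≤ 1) : Integrable f μ :=
  (integrable_const (1 : ℝ)).mono' hf.aestronglyMeasurable (Eventually.of_forall hC)

/-- The spin at `v`. -/
def X (Φ : (V → I) → (V → Bool)) (v : V) (U : V → I) : ℝ := spin (Φ U v)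

lemma abs_X (Φ : (V → I) → (V → Bool)) (v : V) (U : V → I) : |X Φ v U| ≤ 1 :=
  (abs_spin _).le

lemma measurable_X {Φ : (V → I) → (V → Bool)} (hΦ : Measurable Φ) (v : V) :
    Measurable (X Φ v) :=
  (measurable_of_finite spin).comp ((measurable_pi_apply v).comp hΦ)

/-- The mean of the spin at `v` given the labels in `B`. -/
noncomputable def cm (Φ : (V → I) → (V → Bool)) (B : Finset V) (v : V) (U : V → I) : ℝ :=
  ∫ W, X Φ v (mrg B (U, W)) ∂iidLabels V

section Mean

variable {Φ : (V → I) → (V → Bool)} (hΦ : Measurable Φ)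
include hΦ

lemma measurable_cm (B : Finset V) (v : V) : Measurable (cm Φ B v) :=
  (StronglyMeasurable.integral_prod_right'
    ((measurable_X hΦ v).comp (measurable_mrg B)).stronglyMeasurable).measurable

omit hΦ in
lemma abs_cm_le (B : Finset V) (v : V) (U : V → I) : |cm Φ B v U| ≤ 1 := by
  refine (norm_integral_le_of_norm_le_const
    (Eventually.of_forall fun W => (Real.norm_eq_abs _).trans_le (abs_X Φ v _))).trans ?_
  simp

lemma integral_cm (B : Finset V) (v : V) :
    ∫ U, cm Φ B v U ∂iidLabels V = ∫ U, X Φ v U ∂iidLabels V := by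
  have hi : Integrable (fun q => X Φ v (mrg B q)) ((iidLabels V).prod (iidLabels V)) :=
    integrable_of_le_one ((measurable_X hΦ v).comp (measurable_mrg B)) fun q => abs_X Φ v _
  conv_rhs => rw [← map_mrg B,
    integral_map (measurable_mrg B).aemeasurable (measurable_X hΦ v).aestronglyMeasurable,
    integral_prod _ hi]
  rfl

omit hΦ in
lemma cm_congr (B : Finset V) (v : V) {U U' : V → I} (h : ∀ i ∈ B, U i = U' i) :
    cm Φ B v U = cm Φ B v U' := by
  refine integral_congr_ae (Eventually.of_forall fun W => ?_)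
  show X Φ v _ = X Φ v _
  congr 1
  funext i
  by_cases hi : i ∈ B <;> simp [mrg, hi, h]

/-- Means given disjoint sets of labels are independent. -/
lemma integral_cm_mul (B C : Finset V) (hd : Disjoint B C) (u v : V) :
    ∫ U, cm Φ B u U * cm Φ C v U ∂iidLabels V
      = (∫ U, X Φ u U ∂iidLabels V) * ∫ U, X Φ v U ∂iidLabels V := by
  have hm : Measurable fun U => cm Φ B u U * cm Φ C v U :=
    (measurable_cm hΦ B u).mul (measurable_cm hΦ C v)
  rw [← integral_cm hΦ B u, ← integral_cm hΦ C v, ← integral_prod_mul (cm Φ B u) (cm Φ C v)]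
  conv_lhs => rw [← map_mrg B,
    integral_map (measurable_mrg B).aemeasurable hm.aestronglyMeasurable]
  refine integral_congr_ae (Eventually.of_forall fun q => ?_)
  show cm Φ B u (mrg B q) * cm Φ C v (mrg B q) = _
  rw [cm_congr B u (U' := q.1) fun i hi => by simp [mrg, hi],
    cm_congr C v (U' := q.2) fun i hi => by simp [mrg, Finset.disjoint_right.mp hd hi]]

/-- The means given large sets of labels are close to the spin. -/
lemma tendsto_integral_cm [Countable V] (B : ℕ → Finset V)
    (hB : ∀ i, ∀ᶠ n in atTop, i ∈ B n) (v : V) :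
    Tendsto (fun n => ∫ U, |cm Φ (B n) v U - X Φ v U| ∂iidLabels V) atTop (𝓝 0) := by
  rw [Metric.tendsto_atTop]
  intro ε hε
  have hX : Integrable (X Φ v) (iidLabels V) := integrable_of_le_one (measurable_X hΦ v) (abs_X Φ v)
  obtain ⟨h, hh, hhi⟩ := hX.exists_boundedContinuous_integral_sub_le (ε := ε / 4) (by positivity)
  set μ := (iidLabels V).prod (iidLabels V) with hμ
  have hlim : Tendsto (fun n => ∫ q, |h (mrg (B n) q) - h q.1| ∂μ) atTop
      (𝓝 (∫ _q, (0 : ℝ) ∂μ)) := by
    refine tendsto_integral_of_dominated_convergence (fun _ => ‖h‖ + ‖h‖) (fun n => ?_)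
      (integrable_const _) (fun n => Eventually.of_forall fun q => ?_)
      (Eventually.of_forall fun q => ?_)
    · exact ((h.continuous.measurable.comp (measurable_mrg (B n))).sub
        (h.continuous.measurable.comp measurable_fst)).norm.aestronglyMeasurable
    · rw [Real.norm_eq_abs, abs_abs]
      exact (abs_sub _ _).trans (add_le_add (h.norm_coe_le_norm _) (h.norm_coe_le_norm _))
    · have ht : Tendsto (fun n => mrg (B n) q) atTop (𝓝 q.1) := by
        rw [tendsto_pi_nhds]
        intro i
        exact tendsto_const_nhds.congr' ((hB i).mono fun n hn => by simp [mrg, hn])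
      simpa using (((h.continuous.tendsto _).comp ht).sub_const (h q.1)).abs
  rw [integral_zero, Metric.tendsto_atTop] at hlim
  obtain ⟨N, hN⟩ := hlim (ε / 4) (by positivity)
  refine ⟨N, fun n hn => ?_⟩
  have h1 := hN n hn
  rw [Real.dist_eq, sub_zero, abs_of_nonneg (integral_nonneg fun _ => abs_nonneg _)] at h1 ⊢
  have hXh : Integrable (fun U => X Φ v U - h U) (iidLabels V) := hX.sub hhi
  have eq1 : ∫ q, |X Φ v (mrg (B n) q) - h (mrg (B n) q)| ∂μ
      = ∫ U, |X Φ v U - h U| ∂iidLabels V := by
    have hs : AEStronglyMeasurable (fun U => |X Φ v U - h U|) (μ.map (mrg (B n))) :=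
      ((measurable_X hΦ v).sub h.continuous.measurable).norm.aestronglyMeasurable
    conv_rhs => rw [← map_mrg (B n), ← hμ, integral_map (measurable_mrg (B n)).aemeasurable hs]
  have eq2 : ∫ q, |X Φ v q.1 - h q.1| ∂μ = ∫ U, |X Φ v U - h U| ∂iidLabels V := by
    rw [hμ, integral_fun_fst (fun U => |X Φ v U - h U|)]
    simp
  have hm : Measurable fun q : (V → I) × (V → I) => X Φ v (mrg (B n) q) :=
    (measurable_X hΦ v).comp (measurable_mrg _)
  have i0 : Integrable (fun q => X Φ v (mrg (B n) q) - X Φ v q.1) μ :=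
    (integrable_of_le_one hm fun q => abs_X Φ v _).sub
      (integrable_of_le_one ((measurable_X hΦ v).comp measurable_fst) fun q => abs_X Φ v _)
  have iA : Integrable (fun q => |X Φ v (mrg (B n) q) - h (mrg (B n) q)|) μ :=
    ((integrable_of_le_one hm fun q => abs_X Φ v _).sub
      ((integrable_const ‖h‖).mono'
        (h.continuous.measurable.comp (measurable_mrg (B n))).aestronglyMeasurable
        (Eventually.of_forall fun q => h.norm_coe_le_norm _))).abs
  have iC : Integrable (fun q => |h (mrg (B n) q) - h q.1|) μ :=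
    (((integrable_const ‖h‖).mono'
        (h.continuous.measurable.comp (measurable_mrg (B n))).aestronglyMeasurable
        (Eventually.of_forall fun q => h.norm_coe_le_norm _)).sub
      ((integrable_const ‖h‖).mono'
        (h.continuous.measurable.comp measurable_fst).aestronglyMeasurable
        (Eventually.of_forall fun q => h.norm_coe_le_norm _))).abs
  have iD : Integrable (fun q : (V → I) × (V → I) => |X Φ v q.1 - h q.1|) μ :=
    ((integrable_of_le_one ((measurable_X hΦ v).comp measurable_fst) fun q => abs_X Φ v _).sub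
      ((integrable_const ‖h‖).mono'
        (h.continuous.measurable.comp measurable_fst).aestronglyMeasurable
        (Eventually.of_forall fun q => h.norm_coe_le_norm _))).abs
  calc ∫ U, |cm Φ (B n) v U - X Φ v U| ∂iidLabels V
      ≤ ∫ U, ∫ W, |X Φ v (mrg (B n) (U, W)) - X Φ v U| ∂iidLabels V ∂iidLabels V := by
        refine integral_mono ?_ i0.abs.integral_prod_left fun U => ?_
        · exact ((integrable_of_le_one (measurable_cm hΦ (B n) v) (abs_cm_le (B n) v)).sub hX).abs
        show |cm Φ (B n) v U - X Φ v U| ≤ _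
        have hiW : Integrable (fun W => X Φ v (mrg (B n) (U, W))) (iidLabels V) :=
          integrable_of_le_one (hm.comp measurable_prodMk_left) fun W => abs_X Φ v _
        calc |cm Φ (B n) v U - X Φ v U|
            = |∫ W, (X Φ v (mrg (B n) (U, W)) - X Φ v U) ∂iidLabels V| := by
              rw [integral_sub hiW (integrable_const _), integral_const]
              simp [cm]
          _ ≤ _ := abs_integral_le_integral_abs
    _ = ∫ q, |X Φ v (mrg (B n) q) - X Φ v q.1| ∂μ := (integral_prod _ i0.abs).symm
    _ ≤ ∫ q, (|X Φ v (mrg (B n) q) - h (mrg (B n) q)| + |h (mrg (B n) q) - h q.1| +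
          |X Φ v q.1 - h q.1|) ∂μ := by
        refine integral_mono i0.abs ((iA.add iC).add iD) fun q => ?_
        show |X Φ v (mrg (B n) q) - X Φ v q.1| ≤ _
        have := abs_sub_le (X Φ v (mrg (B n) q)) (h (mrg (B n) q)) (X Φ v q.1)
        have := abs_sub_le (h (mrg (B n) q)) (h q.1) (X Φ v q.1)
        rw [abs_sub_comm (h q.1) (X Φ v q.1)] at this
        linarith
    _ = ∫ U, |X Φ v U - h U| ∂iidLabels V + ∫ q, |h (mrg (B n) q) - h q.1| ∂μ +
          ∫ U, |X Φ v U - h U| ∂iidLabels V := by
        rw [integral_add ?_ iD, integral_add iA iC, eq1, eq2]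
        exact iA.add iC
    _ < ε := by
        have hh' : ∫ U, |X Φ v U - h U| ∂iidLabels V ≤ ε / 4 := by simpa using hh
        linarith

lemma abs_integral_mul_sub_le (u v : V) (B C : Finset V) :
    |∫ U, cm Φ B u U * cm Φ C v U ∂iidLabels V - ∫ U, X Φ u U * X Φ v U ∂iidLabels V|
      ≤ ∫ U, |cm Φ B u U - X Φ u U| ∂iidLabels V + ∫ U, |cm Φ C v U - X Φ v U| ∂iidLabels V := by
  have a1 := integrable_of_le_one (μ := iidLabels V) (measurable_cm hΦ B u) (abs_cm_le B u)
  have a2 := integrable_of_le_one (μ := iidLabels V) (measurable_cm hΦ C v) (abs_cm_le C v)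
  have b1 := integrable_of_le_one (μ := iidLabels V) (measurable_X hΦ u) (abs_X Φ u)
  have b2 := integrable_of_le_one (μ := iidLabels V) (measurable_X hΦ v) (abs_X Φ v)
  have p1 : Integrable (fun U => cm Φ B u U * cm Φ C v U) (iidLabels V) :=
    integrable_of_le_one ((measurable_cm hΦ B u).mul (measurable_cm hΦ C v)) fun U => by
      rw [abs_mul]; exact mul_le_one₀ (abs_cm_le B u U) (abs_nonneg _) (abs_cm_le C v U)
  have p2 : Integrable (fun U => X Φ u U * X Φ v U) (iidLabels V) :=
    integrable_of_le_one ((measurable_X hΦ u).mul (measurable_X hΦ v)) fun U => by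
      rw [abs_mul]; exact mul_le_one₀ (abs_X Φ u U) (abs_nonneg _) (abs_X Φ v U)
  rw [← integral_sub p1 p2]
  refine abs_integral_le_integral_abs.trans ?_
  rw [← integral_add (f := fun U => |cm Φ B u U - X Φ u U|)
    (g := fun U => |cm Φ C v U - X Φ v U|) (a1.sub b1).abs (a2.sub b2).abs]
  refine integral_mono (p1.sub p2).abs ((a1.sub b1).abs.add (a2.sub b2).abs) fun U => ?_
  show |cm Φ B u U * cm Φ C v U - X Φ u U * X Φ v U| ≤
    |cm Φ B u U - X Φ u U| + |cm Φ C v U - X Φ v U|
  calc |cm Φ B u U * cm Φ C v U - X Φ u U * X Φ v U|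
      = |(cm Φ B u U - X Φ u U) * cm Φ C v U + X Φ u U * (cm Φ C v U - X Φ v U)| := by ring_nf
    _ ≤ |(cm Φ B u U - X Φ u U) * cm Φ C v U| + |X Φ u U * (cm Φ C v U - X Φ v U)| :=
        abs_add_le _ _
    _ ≤ _ := by
        rw [abs_mul, abs_mul]
        exact add_le_add (mul_le_of_le_one_right (abs_nonneg _) (abs_cm_le C v U))
          (mul_le_of_le_one_left (abs_nonneg _) (abs_X Φ u U))

/-- Equivariance of the means given balls. -/
lemma cm_iso [G.LocallyFinite] [Countable V] (hG : G.Connected)
    (heq : ∀ g : G ≃g G, ∀ᵐ U ∂iidLabels V,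
      Φ (fun v => U (g.symm v)) = fun v => Φ U (g.symm v))
    (g : G ≃g G) (R : ℕ) (v : V) :
    ∀ᵐ U ∂iidLabels V, cm Φ (bll G (g v) R) (g v) (fun i => U (g.symm i))
      = cm Φ (bll G v R) v U := by
  classical
  have h1 : ∀ᵐ q ∂(iidLabels V).prod (iidLabels V),
      Φ (fun i => mrg (bll G v R) q (g.symm i)) = fun i => Φ (mrg (bll G v R) q) (g.symm i) := by
    have h0 := heq g
    rw [← map_mrg (bll G v R)] at h0
    exact ae_of_ae_map (measurable_mrg _).aemeasurable h0
  filter_upwards [Measure.ae_ae_of_ae_prod h1] with U hU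
  have hm : Measurable fun (W : V → I) i => W (g.toEquiv.symm i) :=
    measurable_pi_lambda _ fun i => measurable_pi_apply _
  unfold cm
  have hs : AEStronglyMeasurable
      (fun W => X Φ (g v) (mrg (bll G (g v) R) (fun i => U (g.symm i), W)))
      ((iidLabels V).map fun (W : V → I) i => W (g.toEquiv.symm i)) :=
    ((measurable_X hΦ _).comp ((measurable_mrg _).comp measurable_prodMk_left)).aestronglyMeasurable
  conv_lhs => rw [← map_relabel g.toEquiv, integral_map hm.aemeasurable hs]
  refine integral_congr_ae ?_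
  filter_upwards [hU] with W hW
  have e : mrg (bll G (g v) R) (fun i => U (g.symm i), fun i => W (g.toEquiv.symm i))
      = fun i => mrg (bll G v R) (U, W) (g.symm i) := by
    funext i
    have : i ∈ bll G (g v) R ↔ g.symm i ∈ bll G v R := by
      rw [mem_bll hG, mem_bll hG, ← iso_dist hG g v (g.symm i), g.apply_symm_apply]
    by_cases hi : i ∈ bll G (g v) R
    · simp [mrg, hi, this.mp hi]
    · simp only [mrg, hi, mt this.mpr hi, if_false]
      rfl
  show X Φ (g v) _ = X Φ v _
  rw [e, X, X, hW]
  simp

end Mean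

variable [G.LocallyFinite]

lemma connected_geo (hG : G.IsTree) (o u : V) :
    (G.induce (geo G o u : Set V)).Connected := by
  refine (connected_iff_exists_forall_reachable _).mpr ⟨⟨u, right_mem_geo hG o u⟩, fun c => ?_⟩
  suffices ∀ n, ∀ c : (geo G o u : Set V), G.dist c u = n →
      (G.induce (geo G o u : Set V)).Reachable ⟨u, right_mem_geo hG o u⟩ c from this _ c rfl
  intro n
  induction n with
  | zero =>
    intro c hc
    have : c = ⟨u, right_mem_geo hG o u⟩ := Subtype.ext (hG.connected.dist_eq_zero_iff.mp hc)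
    rw [this]
  | succ n ih =>
    intro c hc
    have hne : (c : V) ≠ u := by intro h; rw [h, dist_self] at hc; omega
    obtain ⟨ha, hd⟩ := tow_spec hG hne
    have hmem : tow G c u ∈ geo G o u := by
      rw [mem_geo hG]
      have hc' := (mem_geo hG).mp (Finset.mem_coe.mp c.2)
      have t1 : G.dist o (tow G c u) ≤ G.dist o c + G.dist (c : V) (tow G c u) :=
        hG.connected.dist_triangle
      have t2 : G.dist o u ≤ G.dist o (tow G c u) + G.dist (tow G c u) u :=
        hG.connected.dist_triangle
      rw [dist_eq_one_iff_adj.mpr ha] at t1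
      omega
    exact (ih ⟨_, hmem⟩ (show G.dist (tow G c u) u = n by omega)).trans (Adj.reachable (show G.Adj _ _ from ha.symm))

lemma Ev_pair (hG : G.IsTree) (θ : ℝ) : ∀ o u : V,
    Ev G θ (geo G o u) (fun η => spin (η o) * spin (η u)) = θ ^ G.dist o u := by
  classical
  suffices ∀ n, ∀ o u : V, G.dist o u = n →
      Ev G θ (geo G o u) (fun η => spin (η o) * spin (η u)) = θ ^ n from fun o u => this _ o u rfl
  intro n
  induction n with
  | zero =>
    intro o u h
    obtain rfl := hG.connected.dist_eq_zero_iff.mp h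
    rw [geo_self hG, Ev_singleton]
    simp [spin_mul_self]
  | succ n ih =>
    intro o u h
    have hne : o ≠ u := by rintro rfl; simp at h
    obtain ⟨ha, hd⟩ := tow_spec hG hne
    have ih' := ih (tow G o u) u (by omega)
    have hnot := (geo_step hG hne).1
    rw [geo_eq_insert hG hne]
    set z := tow G o u with hz
    set D := geo G z u with hD
    have hzD : z ∈ D := left_mem_geo hG _ _
    have huD : u ∈ D := right_mem_geo hG _ _
    have huniq : ∀ w ∈ insert o D, G.Adj o w → w = z := by
      intro w hw how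
      rcases Finset.mem_insert.mp hw with rfl | hw
      · exact absurd how (G.irrefl)
      · rw [hD, mem_geo hG] at hw
        refine (tow_eq hG how ?_).symm
        have t1 : G.dist o u ≤ G.dist o w + G.dist w u := hG.connected.dist_triangle
        rw [dist_eq_one_iff_adj.mpr how] at t1
        have t2 : G.dist z w = 0 := by omega
        rw [← hG.connected.dist_eq_zero_iff.mp t2]
        exact hd
    have hprior : ∀ η, prior G θ (insert o D) η
        = prior G θ D η * ((1 + θ * spin (η o) * spin (η z)) / 2) := by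
      intro η
      have := prior_leaf (θ := θ) (Finset.mem_insert_self o D)
        (Finset.mem_erase.mpr ⟨fun e => hnot (e ▸ hzD), Finset.mem_insert_of_mem hzD⟩)
        ha huniq η
      rwa [Finset.erase_insert hnot] at this
    rw [Ev, Finset.sum_powerset_insert hnot, ← Finset.sum_add_distrib, pow_succ', ← ih',
      Ev, Finset.mul_sum]
    refine Finset.sum_congr rfl fun s hs => ?_
    have hos : o ∉ s := fun h' => hnot (Finset.mem_powerset.mp hs h')
    have hzo : z ≠ o := fun e => hnot (e ▸ hzD)
    have huo : u ≠ o := Ne.symm hne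
    rw [hprior, hprior, prior_congr (η := cfg (insert o s)) (η' := cfg s) fun v hv => by
      simp [cfg, show v ≠ o from fun e => hnot (e ▸ hv)]]
    have e1 : spin (cfg s o) = -1 := by simp [cfg, spin, hos]
    have e2 : spin (cfg (insert o s) o) = 1 := by simp [cfg, spin]
    have e3 : spin (cfg (insert o s) z) = spin (cfg s z) := by simp [cfg, hzo]
    have e4 : spin (cfg (insert o s) u) = spin (cfg s u) := by simp [cfg, huo]
    rw [e1, e2, e3, e4]
    ring

omit [G.LocallyFinite] in
/-- Expectations of functions of finitely many spins. -/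
lemma integral_pattern {θ : ℝ} {Φ : (V → I) → (V → Bool)} (hΦ : Measurable Φ)
    (hlaw : ∀ D : Finset V, (G.induce (D : Set V)).Connected → ∀ η : V → Bool,
      (iidLabels V {U | ∀ v ∈ D, Φ U v = η v}).toReal
        = (1 / 2) * ∏ e ∈ edgesIn G D, edgeWeight θ η e)
    (D : Finset V) (hD : (G.induce (D : Set V)).Connected) (f : (V → Bool) → ℝ)
    (hf : ∀ η η' : V → Bool, (∀ v ∈ D, η v = η' v) → f η = f η') :
    ∫ U, f (Φ U) ∂iidLabels V = Ev G θ D f := by
  classical
  set E : Finset V → Set (V → I) := fun s => {U | ∀ v ∈ D, Φ U v = cfg s v} with hE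
  have hmE : ∀ s, MeasurableSet (E s) := fun s => by
    have : E s = ⋂ v ∈ D, (fun U => Φ U v) ⁻¹' {cfg s v} := by ext U; simp [hE]
    rw [this]
    exact Finset.measurableSet_biInter D fun v _ =>
      ((measurable_pi_apply v).comp hΦ) (measurableSet_singleton _)
  have hfU : ∀ U, f (Φ U) = ∑ s ∈ D.powerset, (E s).indicator (fun _ => f (cfg s)) U := by
    intro U
    have hs0 : U ∈ E (D.filter fun v => Φ U v = true) := fun v hv => by
      simp [cfg, hv]
    rw [Finset.sum_eq_single (D.filter fun v => Φ U v = true)]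
    · rw [Set.indicator_of_mem hs0]
      exact hf _ _ fun v hv => hs0 v hv
    · intro s hs hne
      refine Set.indicator_of_notMem (fun hU => hne ?_) _
      ext v
      simp only [Finset.mem_filter]
      constructor
      · intro hv
        refine ⟨Finset.mem_powerset.mp hs hv, ?_⟩
        rw [hU v (Finset.mem_powerset.mp hs hv)]
        simp [cfg, hv]
      · rintro ⟨hv, ht⟩
        have := hU v hv
        rw [ht] at this
        simpa [cfg] using this.symm
    · intro h
      exact absurd (Finset.mem_powerset.mpr (Finset.filter_subset _ _)) h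
  simp only [hfU]
  rw [integral_finsetSum _ fun s _ => (integrable_const _).indicator (hmE s), Ev]
  refine Finset.sum_congr rfl fun s _ => ?_
  rw [integral_indicator_const _ (hmE s), smul_eq_mul, measureReal_def, hE, hlaw D hD]
  rfl

/-- Above the threshold the free Ising measure is not a factor of IID. -/
theorem not_isFIID_above (hG : G.IsTree) {d : ℕ} (hd : 3 ≤ d) (hdeg : ∀ v, G.degree v = d)
    {θ : ℝ} (hθ0 : 0 ≤ θ) (hθ1 : θ < 1) (hθ : 1 < θ ^ 2 * ((d : ℝ) - 1)) :
    ¬ IsFIIDFreeIsing G θ := by
  classical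
  rintro ⟨Φ, hΦ, heq, hlaw⟩
  have : Countable V := by
    obtain ⟨o⟩ := hG.connected.nonempty
    refine Set.countable_univ_iff.mp ((Set.countable_iUnion fun n =>
      (bll G o n).countable_toSet).mono fun v _ => ?_)
    exact Set.mem_iUnion.mpr ⟨G.dist o v, (mem_bll hG.connected).mpr le_rfl⟩
  obtain ⟨o⟩ := hG.connected.nonempty
  obtain ⟨w, hw⟩ : ∃ w, G.Adj o w := by
    have h : 0 < G.degree o := by rw [hdeg]; omega
    obtain ⟨w, hw⟩ := (G.degree_pos_iff_exists_adj o).mp h
    exact ⟨w, hw⟩
  have hmean : ∀ v, ∫ U, X Φ v U ∂iidLabels V = 0 := fun v => by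
    have h := integral_pattern hΦ hlaw _ (connected_geo hG v v) (fun η => spin (η v))
      fun η η' hη => by rw [hη v (left_mem_geo hG v v)]
    rw [geo_self hG, Ev_singleton] at h
    simpa [cfg, spin, X] using h
  have hcorr : ∀ u v, ∫ U, X Φ u U * X Φ v U ∂iidLabels V = θ ^ G.dist u v := fun u v => by
    rw [← Ev_pair hG θ u v, ← integral_pattern hΦ hlaw _ (connected_geo hG u v)
      (fun η => spin (η u) * spin (η v)) fun η η' hη => by
        rw [hη u (left_mem_geo hG u v), hη v (right_mem_geo hG u v)]]
    rfl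
  have hex : ∀ j, ∃ x, G.dist w x = j := fun j => by
    have h : shl G j o w ≠ ∅ := by
      intro h
      have := sum_shl_one hG hdeg j hw
      rw [h, Finset.sum_empty] at this
      exact absurd this.symm (pow_ne_zero _ (by
        rw [Nat.cast_ne_zero]; omega))
    obtain ⟨x, hx⟩ := Finset.nonempty_iff_ne_empty.mpr h
    exact ⟨x, (mem_shl hG j hw x hx).2⟩
  choose x hx using hex
  set g : ℕ → V → (V → I) → ℝ := fun R v => cm Φ (bll G v R) v with hg
  set K : ℕ → ℕ → ℝ := fun R j => ∫ U, g R w U * g R (x j) U ∂iidLabels V with hK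
  have hgg : ∀ R u v, ∫ U, g R u U * g R v U ∂iidLabels V = K R (G.dist u v) := by
    intro R u v
    obtain ⟨γ, h1, h2⟩ := exists_iso hG hdeg (o := u) (u := v) (o' := w) (u' := x (G.dist u v))
      (hx _).symm
    have hm : Measurable fun (U : V → I) i => U (γ.toEquiv.symm i) :=
      measurable_pi_lambda _ fun i => measurable_pi_apply _
    simp only [hK]
    rw [← h1, ← h2]
    have hs : AEStronglyMeasurable (fun U => g R (γ u) U * g R (γ v) U)
        ((iidLabels V).map fun (U : V → I) i => U (γ.toEquiv.symm i)) :=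
      ((measurable_cm hΦ _ _).mul (measurable_cm hΦ _ _)).aestronglyMeasurable
    conv_rhs => rw [← map_relabel γ.toEquiv, integral_map hm.aemeasurable hs]
    refine integral_congr_ae ?_
    filter_upwards [cm_iso hΦ hG.connected heq γ R u, cm_iso hΦ hG.connected heq γ R v]
      with U hu hv
    exact congrArg₂ (· * ·) hu.symm hv.symm
  have hfin : ∀ R j, 2 * R < j → K R j = 0 := by
    intro R j hj
    simp only [hK, hg]
    rw [integral_cm_mul hΦ _ _ ?_ w (x j), hmean, zero_mul]
    rw [Finset.disjoint_left]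
    intro i hi hi'
    rw [mem_bll hG.connected] at hi hi'
    have : G.dist w (x j) ≤ G.dist w i + G.dist i (x j) := hG.connected.dist_triangle
    rw [hx, dist_comm (u := i)] at this
    omega
  have hpd : ∀ R (T : Finset V) (y : V → ℝ),
      0 ≤ ∑ u ∈ T, ∑ v ∈ T, y u * y v * K R (G.dist u v) := by
    intro R T y
    have hi : ∀ u v, Integrable (fun U => y u * y v * (g R u U * g R v U)) (iidLabels V) :=
      fun u v => (integrable_of_le_one ((measurable_cm hΦ _ u).mul (measurable_cm hΦ _ v))
        fun U => by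
          show |cm Φ (bll G u R) u U * cm Φ (bll G v R) v U| ≤ 1
          rw [abs_mul]
          exact mul_le_one₀ (abs_cm_le _ u U) (abs_nonneg _) (abs_cm_le _ v U)).const_mul _
    have h0 : 0 ≤ ∫ U, (∑ u ∈ T, y u * g R u U) ^ 2 ∂iidLabels V :=
      integral_nonneg fun U => sq_nonneg _
    refine h0.trans_eq ?_
    have e : ∀ U, (∑ u ∈ T, y u * g R u U) ^ 2
        = ∑ u ∈ T, ∑ v ∈ T, y u * y v * (g R u U * g R v U) := fun U => by
      rw [sq, Finset.sum_mul_sum]
      exact Finset.sum_congr rfl fun u _ => Finset.sum_congr rfl fun v _ => by ring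
    simp only [e]
    rw [integral_finsetSum _ fun u _ => integrable_finsetSum _ fun v _ => hi u v]
    refine Finset.sum_congr rfl fun u _ => ?_
    rw [integral_finsetSum _ fun v _ => hi u v]
    exact Finset.sum_congr rfl fun v _ => by rw [integral_const_mul, hgg]
  have hlim : ∀ j, Tendsto (fun R => K R j) atTop (𝓝 (θ ^ j)) := by
    intro j
    have hB : ∀ v i : V, ∀ᶠ R in atTop, i ∈ bll G v R := fun v i =>
      eventually_atTop.mpr ⟨G.dist v i, fun R hR => (mem_bll hG.connected).mpr hR⟩
    have := (tendsto_integral_cm hΦ _ (hB w) w).add (tendsto_integral_cm hΦ _ (hB (x j)) (x j))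
    rw [add_zero] at this
    rw [tendsto_iff_norm_sub_tendsto_zero]
    refine squeeze_zero (fun R => norm_nonneg _) (fun R => ?_) this
    rw [Real.norm_eq_abs, show θ ^ j = θ ^ G.dist w (x j) by rw [hx], ← hcorr]
    exact abs_integral_mul_sub_le hΦ w (x j) _ _
  set b := Real.sqrt ((d : ℝ) - 1) with hb
  have hd' : (3 : ℝ) ≤ d := by exact_mod_cast hd
  have hbound : ∀ j : ℕ, b ^ j * |θ ^ j - θ ^ (j + 2)| ≤ ((j : ℝ) + 1) * (θ ^ 0 - θ ^ 2) :=
    fun j => le_of_tendsto_of_tendsto' (((hlim j).sub (hlim (j + 2))).abs.const_mul _)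
      (((hlim 0).sub (hlim 2)).const_mul _)
      fun R => kernel_bound hG hdeg (by omega) (hfin R) (hpd R) j
  have hc : 1 < b * θ := by
    have e : (b * θ) ^ 2 = θ ^ 2 * ((d : ℝ) - 1) := by
      rw [mul_pow, Real.sq_sqrt (by linarith)]; ring
    have : 0 ≤ b * θ := mul_nonneg (Real.sqrt_nonneg _) hθ0
    nlinarith
  have hgrow : ∀ j : ℕ, (b * θ) ^ j ≤ (j : ℝ) + 1 := fun j => by
    have h := hbound j
    have h2 : 0 < 1 - θ ^ 2 := by nlinarith
    rw [show θ ^ j - θ ^ (j + 2) = θ ^ j * (1 - θ ^ 2) by ring, abs_mul,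
      abs_of_nonneg (pow_nonneg hθ0 j), abs_of_pos h2, pow_zero, ← mul_assoc, ← mul_pow] at h
    exact le_of_mul_le_mul_right h h2
  have t0 := tendsto_self_mul_const_pow_of_lt_one (r := (b * θ)⁻¹) (by positivity)
    (inv_lt_one_of_one_lt₀ hc)
  have t1 := tendsto_pow_atTop_nhds_zero_of_lt_one (r := (b * θ)⁻¹) (by positivity)
    (inv_lt_one_of_one_lt₀ hc)
  have t2 := t0.add t1
  rw [add_zero] at t2
  obtain ⟨j, hj⟩ := (t2.eventually (gt_mem_nhds one_pos)).exists
  rw [← add_one_mul, inv_pow, ← div_eq_mul_inv, div_lt_one (by positivity)] at hj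
  linarith [hgrow j]

end Vale.Agent.P161.Converse
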