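import Vale.Agent.P161.Crit.Geo

/-!
# Radial positive definite kernels of finite range on a regular tree

Testing with vectors that depend only on the depth in a branch gives a nonnegative trigonometric
polynomial, so successive differences of the kernel decay like `(d - 1) ^ (-j / 2)`.
-/

namespace Vale.Agent.P161.Converse

open SimpleGraph Vale.Agent.P161 Vale.Agent.P161.Crit

variable {V : Type*} {G : SimpleGraph V} [G.LocallyFinite]

open Classical in
/-- The vertices at depth `a` in the branch behind `w`, seen from `p`. -/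
noncomputable def shl (G : SimpleGraph V) [G.LocallyFinite] : ℕ → V → V → Finset V
  | 0, _, w => {w}
  | a + 1, p, w => (kids G p w).biUnion fun z => shl G a w z

lemma mem_shl (hG : G.IsTree) : ∀ (a : ℕ) {p w : V}, G.Adj p w → ∀ x ∈ shl G a p w,
    Far G p w x ∧ G.dist w x = a := by
  classical
  intro a
  induction a with
  | zero =>
    intro p w h x hx
    obtain rfl := Finset.mem_singleton.mp hx
    exact ⟨far_self h, by simp⟩
  | succ a ih =>
    intro p w h x hx
    obtain ⟨z, hz, hx⟩ := Finset.mem_biUnion.mp hx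
    obtain ⟨hzp, hwz⟩ := mem_kids.mp hz
    obtain ⟨hf, hd⟩ := ih hwz x hx
    refine ⟨far_child hG h hwz hzp hf, ?_⟩
    have := far_dist hG hwz hf
    rw [dist_comm (u := x), dist_comm (u := x) (v := z)] at this
    omega

lemma shl_disjoint (hG : G.IsTree) {p w : V} (a : ℕ) :
    Set.PairwiseDisjoint (kids G p w : Set V) fun z => shl G a w z := by
  classical
  intro x hx y hy hxy
  rw [Function.onFun, Finset.disjoint_left]
  intro u hux huy
  have h1 := (mem_kids.mp (Finset.mem_coe.mp hx)).2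
  have h2 := (mem_kids.mp (Finset.mem_coe.mp hy)).2
  exact hxy ((tow_of_far hG h1 (mem_shl hG a h1 u hux).1).symm.trans
    (tow_of_far hG h2 (mem_shl hG a h2 u huy).1))

lemma sum_shl_succ (hG : G.IsTree) (a : ℕ) (p w : V) (f : V → ℝ) :
    ∑ x ∈ shl G (a + 1) p w, f x = ∑ z ∈ kids G p w, ∑ x ∈ shl G a w z, f x := by
  classical
  rw [shl, Finset.sum_biUnion (shl_disjoint hG a)]

lemma sum_shl_one (hG : G.IsTree) {d : ℕ} (hdeg : ∀ v, G.degree v = d) :
    ∀ (a : ℕ) {p w : V}, G.Adj p w → ∑ _x ∈ shl G a p w, (1 : ℝ) = ((d - 1 : ℕ) : ℝ) ^ a := by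
  intro a
  induction a with
  | zero => intro p w _; simp [shl]
  | succ a ih =>
    intro p w h
    rw [sum_shl_succ hG, Finset.sum_congr rfl fun z hz => ih (mem_kids.mp hz).2,
      Finset.sum_const, nsmul_eq_mul, card_kids hdeg h, pow_succ]
    ring

/-- Vertices behind different children meet at the parent. -/
lemma dist_shl (hG : G.IsTree) {p w z z' x y : V} {a c : ℕ} (hz : z ∈ kids G p w)
    (hz' : z' ∈ kids G p w) (hne : z ≠ z') (hx : x ∈ shl G a w z) (hy : y ∈ shl G c w z') :
    G.dist x y = a + c + 2 := by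
  have hwz := (mem_kids.mp hz).2
  have hwz' := (mem_kids.mp hz').2
  obtain ⟨hfx, hdx⟩ := mem_shl hG a hwz x hx
  obtain ⟨hfy, hdy⟩ := mem_shl hG c hwz' y hy
  have hn : ¬ Far G w z y := fun hf =>
    hne ((tow_of_far hG hwz hf).symm.trans (tow_of_far hG hwz' hfy))
  have e := dist_across hG hwz hn hfx
  have e' := far_dist hG hwz' hfy
  rw [dist_comm (u := x), e, e', dist_comm (u := y) (v := z'), hdy, hdx]
  omega

/-- The rescaled kernel. -/
noncomputable def sK (q : ℝ) (K : ℕ → ℝ) (j : ℕ) : ℝ := Real.sqrt q ^ j * K j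

/-- The rescaled pair sums between the depths `a` and `a + j`. -/
noncomputable def tK (q : ℝ) (K : ℕ → ℝ) (a j : ℕ) : ℝ :=
  sK q K j + (1 - 1 / q) * ∑ i ∈ Finset.range a, sK q K (j + 2 * (i + 1))

lemma tK_succ (q : ℝ) (K : ℕ → ℝ) (a j : ℕ) :
    tK q K (a + 1) j = tK q K a j + (1 - 1 / q) * sK q K (j + 2 * (a + 1)) := by
  simp only [tK, Finset.sum_range_succ]
  ring

lemma pair_sum (hG : G.IsTree) {d : ℕ} (hdeg : ∀ v, G.degree v = d) {q : ℝ}
    (hq : q = ((d - 1 : ℕ) : ℝ)) (hq0 : 0 < q) (K : ℕ → ℝ) :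
    ∀ (a j : ℕ) {p w : V}, G.Adj p w →
      ∑ u ∈ shl G a p w, ∑ v ∈ shl G (a + j) p w, K (G.dist u v)
        = Real.sqrt q ^ (2 * a + j) * tK q K a j := by
  classical
  have hb : Real.sqrt q ^ 2 = q := Real.sq_sqrt hq0.le
  intro a
  induction a with
  | zero =>
    intro j p w h
    simp only [shl, Finset.sum_singleton, zero_add]
    rw [Finset.sum_congr rfl fun v hv => by rw [(mem_shl hG j h v hv).2],
      ← mul_one (K j), ← Finset.mul_sum, sum_shl_one hG hdeg j h, ← hq, tK, sK]
    simp only [Finset.range_zero, Finset.sum_empty, mul_zero, add_zero, mul_one]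
    rw [show q ^ j = Real.sqrt q ^ j * Real.sqrt q ^ j by rw [← mul_pow, ← sq, hb]]
    ring
  | succ a ih =>
    intro j p w h
    set S := Real.sqrt q ^ (2 * a + j) * tK q K a j with hS
    set M := q ^ (2 * a + j) * K (j + 2 * (a + 1)) with hM
    rw [show a + 1 + j = a + j + 1 by omega, sum_shl_succ hG]
    have key : ∀ z ∈ kids G p w, ∑ u ∈ shl G a w z,
        ∑ v ∈ shl G (a + j + 1) p w, K (G.dist u v) = S + (q - 1) * M := by
      intro z hz
      have hwz := (mem_kids.mp hz).2
      simp only [sum_shl_succ hG]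
      rw [Finset.sum_comm, ← Finset.add_sum_erase _ _ hz, ih j hwz]
      congr 1
      have hcross : ∀ z' ∈ (kids G p w).erase z, ∑ u ∈ shl G a w z,
          ∑ v ∈ shl G (a + j) w z', K (G.dist u v) = M := by
        intro z' hz'
        obtain ⟨hne, hzk⟩ := Finset.mem_erase.mp hz'
        rw [Finset.sum_congr rfl fun u hu => Finset.sum_congr rfl fun v hv => by
          rw [dist_shl hG hz hzk (Ne.symm hne) hu hv]]
        rw [hM, show a + (a + j) + 2 = j + 2 * (a + 1) by omega,
          ← mul_one (K (j + 2 * (a + 1))), ← Finset.mul_sum,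
          sum_shl_one hG hdeg _ (mem_kids.mp hzk).2]
        rw [Finset.sum_congr rfl fun u _ => (one_mul (K (j + 2 * (a + 1)) *
          ((d - 1 : ℕ) : ℝ) ^ (a + j))).symm, ← Finset.sum_mul, sum_shl_one hG hdeg _ hwz, ← hq]
        ring
      rw [Finset.sum_congr rfl hcross, Finset.sum_const, nsmul_eq_mul,
        Finset.card_erase_of_mem hz, card_kids hdeg h]
      obtain ⟨k, hk⟩ : ∃ k, d - 1 = k + 1 := by
        refine Nat.exists_eq_succ_of_ne_zero fun h0 => ?_
        rw [hq, h0] at hq0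
        simp at hq0
      rw [hq, hk]
      simp
    rw [Finset.sum_congr rfl key, Finset.sum_const, nsmul_eq_mul, card_kids hdeg h, ← hq,
      tK_succ, hS, hM, sK]
    have e1 : Real.sqrt q ^ (2 * (a + 1) + j) = q * Real.sqrt q ^ (2 * a + j) := by
      rw [show 2 * (a + 1) + j = 2 + (2 * a + j) by omega, pow_add, hb]
    have e2 : Real.sqrt q ^ (j + 2 * (a + 1)) = q * Real.sqrt q ^ (2 * a + j) := by
      rw [← e1, Nat.add_comm]
    have e3 : q ^ (2 * a + j) = Real.sqrt q ^ (2 * a + j) * Real.sqrt q ^ (2 * a + j) := by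
      rw [← mul_pow, ← sq, hb]
    rw [e1, e2, e3]
    field_simp

lemma sum_two_sided {g : ℕ → ℝ} {N a L : ℕ} (hg : ∀ j, N < j → g j = 0) (h1 : N ≤ a)
    (h2 : a + N < L) :
    ∑ c ∈ Finset.range L, g (Nat.dist a c) = g 0 + 2 * ∑ i ∈ Finset.range N, g (i + 1) := by
  have htail : ∀ n, N ≤ n →
      ∑ i ∈ Finset.range n, g (i + 1) = ∑ i ∈ Finset.range N, g (i + 1) := by
    intro n hn
    refine (Finset.sum_subset (Finset.range_mono hn) fun i _ hi => hg _ ?_).symm
    rw [Finset.mem_range] at hi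
    omega
  rw [show L = a + ((L - a - 1) + 1) by omega, Finset.sum_range_add, Finset.sum_range_succ',
    ← Finset.sum_range_reflect]
  have eA : ∀ i ∈ Finset.range a, g (Nat.dist a (a - 1 - i)) = g (i + 1) := fun i hi => by
    rw [Finset.mem_range] at hi
    congr 1
    rw [Nat.dist_eq_sub_of_le_right (by omega)]
    omega
  have eB : ∀ k, Nat.dist a (a + k) = k := fun k => by
    rw [Nat.dist_eq_sub_of_le (by omega)]
    omega
  rw [Finset.sum_congr rfl eA, htail a h1]
  simp only [eB, add_zero, Nat.dist_self]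
  rw [htail (L - a - 1) (by omega)]
  ring

lemma nonneg_of_mul_add {τ B : ℝ} (h : ∀ M : ℕ, 0 ≤ (M : ℝ) * τ + B) : 0 ≤ τ := by
  by_contra hneg
  rw [not_le] at hneg
  obtain ⟨M, hM⟩ := exists_nat_gt (B / -τ)
  rw [div_lt_iff₀ (by linarith)] at hM
  nlinarith [h M]

lemma abs_sin_nat_mul_le (n : ℕ) (x : ℝ) : |Real.sin (n * x)| ≤ n * |Real.sin x| := by
  induction n with
  | zero => simp
  | succ n ih =>
    push_cast
    rw [add_mul, one_mul, Real.sin_add]
    calc |Real.sin (n * x) * Real.cos x + Real.cos (n * x) * Real.sin x|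
        ≤ |Real.sin (n * x) * Real.cos x| + |Real.cos (n * x) * Real.sin x| := abs_add_le _ _
      _ ≤ |Real.sin (n * x)| * 1 + 1 * |Real.sin x| := by
          rw [abs_mul, abs_mul]
          gcongr
          · exact Real.abs_cos_le_one _
          · exact Real.abs_cos_le_one _
      _ ≤ _ := by linarith

lemma abs_cos_diff_le (j : ℕ) (x : ℝ) :
    |Real.cos (j * x) - Real.cos (((j : ℝ) + 2) * x)| ≤ ((j : ℝ) + 1) * (1 - Real.cos (2 * x)) := by
  have h := abs_sin_nat_mul_le (j + 1) x
  push_cast at h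
  rw [Real.cos_sub_cos, show ((j : ℝ) * x + ((j : ℝ) + 2) * x) / 2 = ((j : ℝ) + 1) * x by ring,
    show ((j : ℝ) * x - ((j : ℝ) + 2) * x) / 2 = -x by ring, Real.sin_neg,
    show 1 - Real.cos (2 * x) = 2 * (|Real.sin x| * |Real.sin x|) by
      rw [Real.cos_two_mul', abs_mul_abs_self]; nlinarith [Real.sin_sq_add_cos_sq x]]
  rw [show -2 * Real.sin (((j : ℝ) + 1) * x) * -Real.sin x
    = 2 * (Real.sin (((j : ℝ) + 1) * x) * Real.sin x) by ring, abs_mul, abs_mul, abs_two]
  nlinarith [mul_le_mul_of_nonneg_right h (abs_nonneg (Real.sin x))]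

lemma sum_cos_nodes {M : ℕ} (hM : 0 < M) {n : ℕ} (hn : 0 < n) (hnM : n < M) :
    ∑ k ∈ Finset.range M, Real.cos (2 * Real.pi * n * k / M) = 0 := by
  set ζ := Complex.exp (2 * Real.pi * n / M * Complex.I) with hζ
  have hMC : (M : ℂ) ≠ 0 := Nat.cast_ne_zero.mpr hM.ne'
  have hpow : ζ ^ M = 1 := by
    rw [hζ, ← Complex.exp_nat_mul,
      show (M : ℂ) * (2 * Real.pi * n / M * Complex.I) = n * (2 * Real.pi * Complex.I) by
        field_simp]
    exact Complex.exp_nat_mul_two_pi_mul_I n
  have hne : ζ ≠ 1 := by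
    intro h
    rw [hζ, Complex.exp_eq_one_iff] at h
    obtain ⟨m, hm⟩ := h
    have h' : (n : ℂ) = ((m * M : ℤ) : ℂ) := by
      push_cast
      field_simp at hm
      linear_combination hm
    have h'' : (n : ℤ) = m * M := by exact_mod_cast h'
    rcases le_or_gt m 0 with hm0 | hm0 <;> nlinarith
  have hgeo : ∑ k ∈ Finset.range M, ζ ^ k = 0 := by
    rw [geom_sum_eq hne, hpow, sub_self, zero_div]
  have := congrArg Complex.re hgeo
  rw [Complex.re_sum, Complex.zero_re] at this
  rw [← this]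
  refine Finset.sum_congr rfl fun k _ => ?_
  rw [hζ, ← Complex.exp_nat_mul,
    show (k : ℂ) * (2 * Real.pi * n / M * Complex.I) = ((2 * Real.pi * n * k / M : ℝ) : ℂ) *
      Complex.I by push_cast; ring, Complex.exp_ofReal_mul_I_re]

/-- A finite range nonnegative trigonometric polynomial has controlled differences. -/
lemma trig_bound {t : ℕ → ℝ} {N : ℕ} (ht : ∀ j, N < j → t j = 0)
    (hτ : ∀ φ : ℝ, 0 ≤ t 0 + 2 * ∑ i ∈ Finset.range N, t (i + 1) * Real.cos (((i : ℝ) + 1) * φ))
    (j : ℕ) : |t j - t (j + 2)| ≤ ((j : ℝ) + 1) * (t 0 - t 2) := by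
  set M := 2 * (N + j + 3) with hM
  have hM0 : 0 < M := by omega
  set φ : ℕ → ℝ := fun k => 2 * Real.pi * k / M with hφ
  set τ : ℕ → ℝ := fun k =>
    t 0 + 2 * ∑ i ∈ Finset.range N, t (i + 1) * Real.cos (((i : ℝ) + 1) * φ k) with hτdef
  have hcos : ∀ n : ℕ, n < M → ∑ k ∈ Finset.range M, Real.cos ((n : ℝ) * φ k)
      = if n = 0 then (M : ℝ) else 0 := by
    intro n hn
    rcases Nat.eq_zero_or_pos n with rfl | hn0
    · simp
    · rw [if_neg hn0.ne', ← sum_cos_nodes hM0 hn0 hn]
      exact Finset.sum_congr rfl fun k _ => by rw [hφ]; ring_nf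
  have hmom : ∀ n : ℕ, n ≤ j + 2 →
      ∑ k ∈ Finset.range M, τ k * Real.cos ((n : ℝ) * φ k) = M * t n := by
    intro n hn
    have hpt : ∀ k, τ k * Real.cos ((n : ℝ) * φ k) = t 0 * Real.cos ((n : ℝ) * φ k) +
        ∑ i ∈ Finset.range N, t (i + 1) * (Real.cos (((i + 1 + n : ℕ) : ℝ) * φ k) +
          Real.cos ((Nat.dist (i + 1) n : ℕ) * φ k)) := by
      intro k
      rw [hτdef]
      simp only [add_mul, Finset.mul_sum, Finset.sum_mul]
      congr 1
      refine Finset.sum_congr rfl fun i _ => ?_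
      have e : Real.cos (((i + 1 + n : ℕ) : ℝ) * φ k) +
          Real.cos ((Nat.dist (i + 1) n : ℕ) * φ k)
          = 2 * Real.cos (((i : ℝ) + 1) * φ k) * Real.cos ((n : ℝ) * φ k) := by
        rcases le_total (i + 1) n with h | h
        · rw [Nat.dist_eq_sub_of_le h, Nat.cast_sub h]
          push_cast
          rw [show ((i : ℝ) + 1 + n) * φ k = (n : ℝ) * φ k + ((i : ℝ) + 1) * φ k by ring,
            show ((n : ℝ) - ((i : ℝ) + 1)) * φ k = (n : ℝ) * φ k - ((i : ℝ) + 1) * φ k by ring,
            Real.cos_add, Real.cos_sub]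
          ring
        · rw [Nat.dist_eq_sub_of_le_right h, Nat.cast_sub h]
          push_cast
          rw [show ((i : ℝ) + 1 + n) * φ k = ((i : ℝ) + 1) * φ k + (n : ℝ) * φ k by ring,
            show ((i : ℝ) + 1 - n) * φ k = ((i : ℝ) + 1) * φ k - (n : ℝ) * φ k by ring,
            Real.cos_add, Real.cos_sub]
          ring
      rw [e]
      ring
    simp only [hpt, Finset.sum_add_distrib, ← Finset.mul_sum]
    rw [Finset.sum_comm, hcos n (by omega)]
    simp only [← Finset.mul_sum, Finset.sum_add_distrib]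
    have hterm : ∀ i ∈ Finset.range N, t (i + 1) *
        (∑ k ∈ Finset.range M, Real.cos (((i + 1 + n : ℕ) : ℝ) * φ k) +
          ∑ k ∈ Finset.range M, Real.cos ((Nat.dist (i + 1) n : ℕ) * φ k))
        = if i + 1 = n then (M : ℝ) * t (i + 1) else 0 := by
      intro i hi
      rw [Finset.mem_range] at hi
      rw [hcos _ (by omega), hcos _ (by
        rcases le_total (i + 1) n with h | h
        · rw [Nat.dist_eq_sub_of_le h]; omega
        · rw [Nat.dist_eq_sub_of_le_right h]; omega), if_neg (by omega), zero_add]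
      by_cases h : i + 1 = n
      · rw [if_pos h, if_pos (by rw [h, Nat.dist_self]), mul_comm]
      · rw [if_neg h, if_neg fun h0 => h (Nat.eq_of_dist_eq_zero h0), mul_zero]
    rw [Finset.sum_congr rfl hterm]
    rcases Nat.eq_zero_or_pos n with rfl | hn0
    · simp [mul_comm]
    obtain ⟨m, rfl⟩ := Nat.exists_eq_succ_of_ne_zero hn0.ne'
    simp only [Nat.succ_eq_add_one, add_left_inj, Finset.sum_ite_eq', Finset.mem_range]
    rw [if_neg (by omega), mul_zero, zero_add]
    split_ifs with h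
    · rfl
    · rw [ht (m + 1) (by omega), mul_zero]
  have h0 := hmom 0 (by omega)
  have h2 := hmom 2 (by omega)
  have hj := hmom j (by omega)
  have hj2 := hmom (j + 2) le_rfl
  have hle : |∑ k ∈ Finset.range M,
      τ k * (Real.cos ((j : ℝ) * φ k) - Real.cos (((j : ℝ) + 2) * φ k))|
      ≤ ((j : ℝ) + 1) * ∑ k ∈ Finset.range M, τ k * (1 - Real.cos (2 * φ k)) := by
    refine (Finset.abs_sum_le_sum_abs _ _).trans ?_
    rw [Finset.mul_sum]
    refine Finset.sum_le_sum fun k _ => ?_
    rw [abs_mul, abs_of_nonneg (show 0 ≤ τ k from hτ (φ k))]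
    calc τ k * |Real.cos ((j : ℝ) * φ k) - Real.cos (((j : ℝ) + 2) * φ k)|
        ≤ τ k * (((j : ℝ) + 1) * (1 - Real.cos (2 * φ k))) :=
          mul_le_mul_of_nonneg_left (abs_cos_diff_le j _) (hτ (φ k))
      _ = _ := by ring
  push_cast at h0 h2 hj2
  simp only [mul_sub, mul_one, Finset.sum_sub_distrib, zero_mul, Real.cos_zero] at hle h0
  rw [hj, hj2, h0, h2, ← mul_sub, ← mul_sub, abs_mul, Nat.abs_cast] at hle
  exact le_of_mul_le_mul_left (hle.trans_eq (by ring)) (Nat.cast_pos.mpr hM0)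

/-- Radial positive definite kernels of finite range on the `d`-regular tree. -/
theorem kernel_bound (hG : G.IsTree) {d : ℕ} (hdeg : ∀ v, G.degree v = d) (hd : 2 ≤ d)
    {K : ℕ → ℝ} {N : ℕ} (hN : ∀ j, N < j → K j = 0)
    (hpd : ∀ (T : Finset V) (x : V → ℝ), 0 ≤ ∑ u ∈ T, ∑ v ∈ T, x u * x v * K (G.dist u v))
    (j : ℕ) : Real.sqrt ((d : ℝ) - 1) ^ j * |K j - K (j + 2)| ≤ ((j : ℝ) + 1) * (K 0 - K 2) := by
  classical
  obtain ⟨o⟩ := hG.connected.nonempty
  obtain ⟨w, hw⟩ : ∃ w, G.Adj o w := by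
    have h : 0 < G.degree o := by rw [hdeg]; omega
    obtain ⟨w, hw⟩ := (G.degree_pos_iff_exists_adj o).mp h
    exact ⟨w, hw⟩
  set q := ((d - 1 : ℕ) : ℝ) with hq
  have hqd : q = (d : ℝ) - 1 := by rw [hq, Nat.cast_sub (by omega), Nat.cast_one]
  have hq1 : 1 ≤ q := by
    rw [hqd]
    have : (2 : ℝ) ≤ d := by exact_mod_cast hd
    linarith
  have hq0 : 0 < q := by linarith
  set b := Real.sqrt q with hb
  have hb0 : 0 < b := Real.sqrt_pos.mpr hq0
  have hb2 : b ^ 2 = q := Real.sq_sqrt hq0.le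
  have hsK : ∀ i, N < i → sK q K i = 0 := fun i hi => by simp [sK, hN i hi]
  set t : ℕ → ℝ := fun i => tK q K N i with ht
  have hstat : ∀ a i, N ≤ a → tK q K a i = t i := by
    intro a i ha
    simp only [ht, tK]
    congr 2
    refine (Finset.sum_subset (Finset.range_mono ha) fun k _ hk => hsK _ ?_).symm
    rw [Finset.mem_range] at hk
    omega
  have ht0 : ∀ i, N < i → t i = 0 := fun i hi => by
    simp only [ht, tK]
    rw [hsK i hi, Finset.sum_eq_zero fun k _ => hsK _ (by omega), mul_zero, add_zero]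
  have hP : ∀ a c, N ≤ a → N ≤ c → ∑ u ∈ shl G a o w, ∑ v ∈ shl G c o w, K (G.dist u v)
      = b ^ (a + c) * t (Nat.dist a c) := by
    intro a c ha hc
    rcases le_total a c with h | h
    · obtain ⟨i, rfl⟩ := Nat.exists_eq_add_of_le h
      rw [pair_sum hG hdeg hq hq0 K a i hw, hstat a i ha, Nat.dist_eq_sub_of_le h,
        Nat.add_sub_cancel_left, show 2 * a + i = a + (a + i) by omega]
    · obtain ⟨i, rfl⟩ := Nat.exists_eq_add_of_le h
      rw [Finset.sum_comm, Finset.sum_congr rfl fun u _ => Finset.sum_congr rfl fun v _ => by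
        rw [dist_comm], pair_sum hG hdeg hq hq0 K c i hw, hstat c i hc,
        Nat.dist_eq_sub_of_le_right h, Nat.add_sub_cancel_left,
        show 2 * c + i = c + i + c by omega]
  have hquad : ∀ (L : ℕ) (x : ℕ → ℝ),
      0 ≤ ∑ a ∈ Finset.range L, ∑ c ∈ Finset.range L, x a * x c * t (Nat.dist a c) := by
    intro L x
    have hdis : Set.PairwiseDisjoint (Finset.range L : Set ℕ) fun a => shl G (N + a) o w := by
      intro a _ c _ hac
      rw [Function.onFun, Finset.disjoint_left]
      intro u hu hu'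
      have h1 := (mem_shl hG _ hw u hu).2
      have h2 := (mem_shl hG _ hw u hu').2
      exact hac (by omega)
    have h := hpd ((Finset.range L).biUnion fun a => shl G (N + a) o w)
      (fun u => x (G.dist w u - N) * (b ^ G.dist w u)⁻¹)
    simp only [Finset.sum_biUnion hdis] at h
    refine h.trans_eq (Finset.sum_congr rfl fun a _ => ?_)
    rw [Finset.sum_comm]
    refine Finset.sum_congr rfl fun c _ => ?_
    rw [Finset.sum_congr rfl fun u hu => Finset.sum_congr rfl fun v hv => by
      rw [(mem_shl hG _ hw u hu).2, (mem_shl hG _ hw v hv).2, Nat.add_sub_cancel_left,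
        Nat.add_sub_cancel_left]]
    simp only [← Finset.mul_sum]
    rw [hP _ _ (by omega) (by omega), Nat.dist_add_add_left, pow_add]
    field_simp
    ring
  set S := ∑ i ∈ Finset.range (N + 1), |t i| with hS
  have hnn : ∀ φ : ℝ,
      0 ≤ t 0 + 2 * ∑ i ∈ Finset.range N, t (i + 1) * Real.cos (((i : ℝ) + 1) * φ) := by
    intro φ
    set g : ℕ → ℝ := fun i => t i * Real.cos ((i : ℝ) * φ) with hg
    have hg0 : ∀ i, N < i → g i = 0 := fun i hi => by simp [hg, ht0 i hi]
    have hτ' : g 0 + 2 * ∑ i ∈ Finset.range N, g (i + 1)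
        = t 0 + 2 * ∑ i ∈ Finset.range N, t (i + 1) * Real.cos (((i : ℝ) + 1) * φ) := by
      simp [hg]
    have hgS : ∀ i, |g i| ≤ S := by
      intro i
      by_cases hi : i ≤ N
      · refine le_trans ?_ (Finset.single_le_sum (fun k _ => abs_nonneg (t k))
          (Finset.mem_range.mpr (Nat.lt_succ_of_le hi)))
        simp only [hg, abs_mul]
        exact mul_le_of_le_one_right (abs_nonneg _) (Real.abs_cos_le_one _)
      · rw [hg0 i (not_le.mp hi), abs_zero]
        exact Finset.sum_nonneg fun k _ => abs_nonneg _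
    rw [← hτ']
    refine nonneg_of_mul_add (B := 2 * N * ((2 * N + 1) * S)) fun M => ?_
    set L := M + 2 * N with hL
    have hc := add_nonneg (hquad L fun a => Real.cos ((a : ℝ) * φ))
      (hquad L fun a => Real.sin ((a : ℝ) * φ))
    rw [← Finset.sum_add_distrib] at hc
    have hrow : ∀ a ∈ Finset.range L,
        (∑ c ∈ Finset.range L, Real.cos ((a : ℝ) * φ) * Real.cos ((c : ℝ) * φ) * t (Nat.dist a c)) +
          ∑ c ∈ Finset.range L, Real.sin ((a : ℝ) * φ) * Real.sin ((c : ℝ) * φ) * t (Nat.dist a c)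
        = ∑ c ∈ Finset.range L, g (Nat.dist a c) := by
      intro a _
      rw [← Finset.sum_add_distrib]
      refine Finset.sum_congr rfl fun c _ => ?_
      rcases le_total a c with h | h
      · simp only [hg, Nat.dist_eq_sub_of_le h, Nat.cast_sub h, sub_mul, Real.cos_sub]
        ring
      · simp only [hg, Nat.dist_eq_sub_of_le_right h, Nat.cast_sub h, sub_mul, Real.cos_sub]
        ring
    rw [Finset.sum_congr rfl hrow] at hc
    have hedge : ∀ a, ∑ c ∈ Finset.range L, g (Nat.dist a c) ≤ (2 * N + 1) * S := by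
      intro a
      have hsub : ∀ c ∈ Finset.range L, c ∉ Finset.Icc (a - N) (a + N) →
          g (Nat.dist a c) = 0 := by
        intro c _ hc'
        refine hg0 _ ?_
        rw [Finset.mem_Icc] at hc'
        rcases le_total a c with h | h
        · rw [Nat.dist_eq_sub_of_le h]; omega
        · rw [Nat.dist_eq_sub_of_le_right h]; omega
      rw [← Finset.sum_filter_add_sum_filter_not (Finset.range L)
        (fun c => c ∈ Finset.Icc (a - N) (a + N)),
        Finset.sum_eq_zero (s := (Finset.range L).filter fun c => ¬ c ∈ Finset.Icc (a - N) (a + N))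
          (fun c hc' => hsub c (Finset.mem_filter.mp hc').1 (Finset.mem_filter.mp hc').2), add_zero]
      refine (Finset.sum_le_card_nsmul _ _ S fun c _ => (le_abs_self _).trans (hgS _)).trans ?_
      rw [nsmul_eq_mul]
      refine mul_le_mul_of_nonneg_right ?_ (Finset.sum_nonneg fun k _ => abs_nonneg _)
      have : ((Finset.range L).filter fun c => c ∈ Finset.Icc (a - N) (a + N)).card
          ≤ (Finset.Icc (a - N) (a + N)).card :=
        Finset.card_le_card fun c hc' => (Finset.mem_filter.mp hc').2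
      rw [Nat.card_Icc] at this
      exact_mod_cast this.trans (by omega)
    set τ0 := g 0 + 2 * ∑ i ∈ Finset.range N, g (i + 1)
    have hmid : ∀ a ∈ Finset.Ico N (N + M), ∑ c ∈ Finset.range L, g (Nat.dist a c) = τ0 := by
      intro a ha
      rw [Finset.mem_Ico] at ha
      exact sum_two_sided hg0 ha.1 (by omega)
    have hsub : Finset.Ico N (N + M) ⊆ Finset.range L := fun a ha => by
      rw [Finset.mem_Ico] at ha
      exact Finset.mem_range.mpr (by omega)
    rw [← Finset.sum_sdiff hsub, Finset.sum_congr rfl hmid, Finset.sum_const, Nat.card_Ico,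
      Nat.add_sub_cancel_left, nsmul_eq_mul] at hc
    have hout := Finset.sum_le_card_nsmul (Finset.range L \ Finset.Ico N (N + M)) _ _
      fun a _ => hedge a
    rw [nsmul_eq_mul, Finset.card_sdiff_of_subset hsub, Finset.card_range, Nat.card_Ico,
      Nat.add_sub_cancel_left, show L - M = 2 * N by omega] at hout
    push_cast at hout
    linarith
  have hrec : ∀ i, t i - t (i + 2) = b ^ i * (K i - K (i + 2)) := by
    intro i
    have e : t i = tK q K (N + 1) i := (hstat (N + 1) i (by omega)).symm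
    rw [e]
    simp only [ht, tK, Finset.sum_range_succ', sK, ← hb]
    rw [show ∑ k ∈ Finset.range N, b ^ (i + 2 * (k + 1 + 1)) * K (i + 2 * (k + 1 + 1))
        = ∑ k ∈ Finset.range N, b ^ (i + 2 + 2 * (k + 1)) * K (i + 2 + 2 * (k + 1)) from
      Finset.sum_congr rfl fun k _ => by rw [show i + 2 * (k + 1 + 1) = i + 2 + 2 * (k + 1) by ring]]
    rw [show i + 2 * (0 + 1) = i + 2 by omega, pow_add b i 2, hb2]
    field_simp
    ring
  have h := trig_bound ht0 hnn j
  rw [hrec j, show t 0 - t 2 = K 0 - K 2 by simpa using hrec 0, abs_mul,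
    abs_of_nonneg (pow_nonneg hb0.le j)] at h
  rwa [← hqd, ← hb]

end Vale.Agent.P161.Converse
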